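import Vale.Agent.P011.E6O.Defs2
import Vale.Agent.P011.E6O.Dict
import Vale.Agent.P011.E6O.H69.Res
import Vale.Agent.P011.D4.Up

/-!
Block E6O: linear maps between standard points.
-/

open NumberField Matrix

namespace Vale.Agent.P011.E6O

open Vale.Agent.P011.MPQ Vale.Agent.P011.D4 Vale.Agent.P011.D4.Oct Vale.Agent.P011.E6
open Vale.Agent.P011.E6.Alb

variable {k E : Type} [Field k] [Field E] [Algebra k E]

/-- The element `(0, 0, 0; r₁ x, r₂ x, r₃ x)`. -/
def pt {a b c : kˣ} (x : OctL E a b c) : (Fin 3 → E) →ₗ[E] AlbL E a b c where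
  toFun r := ⟨0, 0, 0, r 0 • x, r 1 • x, r 2 • x⟩
  map_add' r t := by ext1 <;> simp [add_smul]
  map_smul' r t := by ext1 <;> simp [mul_smul]

variable {a b c : kˣ}

theorem pt_apply (x : OctL E a b c) (r : Fin 3 → E) :
    pt x r = ⟨0, 0, 0, r 0 • x, r 1 • x, r 2 • x⟩ := rfl

theorem mem_Apt_pt {x : OctL E a b c} {y : AlbL E a b c} : y ∈ Apt x ↔ ∃ r, y = pt x r := Iff.rfl

theorem pt_mem (x : OctL E a b c) (r : Fin 3 → E) : pt x r ∈ Apt x := ⟨r, rfl⟩

theorem pt_smul (t : E) (x : OctL E a b c) (r : Fin 3 → E) : pt (t • x) r = pt x (t • r) := by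
  rw [pt_apply, pt_apply]
  ext1
  · rfl
  · rfl
  · rfl
  · change r 0 • t • x = (t * r 0) • x
    rw [smul_smul, mul_comm]
  · change r 1 • t • x = (t * r 1) • x
    rw [smul_smul, mul_comm]
  · change r 2 • t • x = (t * r 2) • x
    rw [smul_smul, mul_comm]

theorem Apt_smul {t : E} (ht : t ≠ 0) (x : OctL E a b c) : Apt (t • x) = Apt x := by
  ext y
  rw [mem_Apt_pt, mem_Apt_pt]
  constructor
  · rintro ⟨r, rfl⟩
    exact ⟨t • r, pt_smul t x r⟩
  · rintro ⟨r, rfl⟩
    refine ⟨t⁻¹ • r, ?_⟩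
    rw [pt_smul, smul_smul, mul_inv_cancel₀ ht, one_smul]

theorem pt_inj {x : OctL E a b c} (hx : x ≠ 0) {r t : Fin 3 → E} (h : pt x r = pt x t) : r = t := by
  rw [pt_apply, pt_apply] at h
  have h1 := congrArg Alb.x1 h
  have h2 := congrArg Alb.x2 h
  have h3 := congrArg Alb.x3 h
  simp only at h1 h2 h3
  funext i
  fin_cases i
  · exact smul_left_injective E hx h1
  · exact smul_left_injective E hx h2
  · exact smul_left_injective E hx h3

/-- A linear map between standard points is given by a matrix. -/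
theorem exists_mat {h : AlbL E a b c ≃ₗ[E] AlbL E a b c} {x y : OctL E a b c}
    (hA : (Apt x).map (h : AlbL E a b c →ₗ[E] AlbL E a b c) = Apt y) :
    ∃ d : Matrix (Fin 3) (Fin 3) E, ∀ r, h (pt x r) = pt y (r ᵥ* d) := by
  have h1 : ∀ i : Fin 3, ∃ t : Fin 3 → E, h (pt x (Pi.single i 1)) = pt y t := by
    intro i
    have h2 : h (pt x (Pi.single i 1)) ∈ Apt y := by
      rw [← hA]
      exact ⟨_, pt_mem x _, rfl⟩
    exact mem_Apt_pt.mp h2
  choose d hd using h1
  refine ⟨Matrix.of d, ?_⟩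
  have h3 : (h : AlbL E a b c →ₗ[E] AlbL E a b c) ∘ₗ pt x = pt y ∘ₗ (Matrix.of d).vecMulLinear := by
    refine (Pi.basisFun E (Fin 3)).ext fun i => ?_
    rw [Pi.basisFun_apply, LinearMap.comp_apply, LinearMap.comp_apply, Matrix.vecMulLinear_apply,
      Matrix.single_one_vecMul]
    exact hd i
  exact fun r => LinearMap.congr_fun h3 r

/-- The semilinear map on the standard points. -/
theorem ph_pt {ρ : E ≃ₐ[k] E} {lam : Eˣ} {x : OctL E a b c} (hx : omap ρ x = x) (r : Fin 3 → E) :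
    ph ρ lam (pt x r) = pt x ((fun i => ρ (r i)) ᵥ* !![0, 1, 0; 0, 0, 1; (lam : E), 0, 0]) := by
  rw [pt_apply, pt_apply, ph]
  simp only [omap_smul, hx, map_zero, mul_zero]
  ext1
  · rfl
  · rfl
  · rfl
  · simp [Matrix.vecMul, dotProduct, Fin.sum_univ_three, smul_smul, mul_comm]
  · simp [Matrix.vecMul, dotProduct, Fin.sum_univ_three]
  · simp [Matrix.vecMul, dotProduct, Fin.sum_univ_three]

/-- The hermitian form on the standard points. -/
theorem her_pt {σ : E ≃ₐ[k] E} {g : Fin 3 → Eˣ} (x : OctL E a b c) (r t : Fin 3 → E) :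
    her σ g (pt x r) (pt x t) = bil x (omap σ x) * (g 1 * g 2 * r 0 * σ (t 0) +
      g 2 * g 0 * r 1 * σ (t 1) + g 0 * g 1 * r 2 * σ (t 2)) := by
  rw [her, pt_apply, pt_apply]
  simp only [tf, wt, amap, omap_smul, bil_smul_left, bil_smul_right, map_zero, mul_zero]
  ring

end Vale.Agent.P011.E6O
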